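import Vale.Agent.P002.Torus.Perturb
import Vale.Agent.P002.Frames.Assembly

/-! From one open piece to the whole representation space: positive genus, at least two
punctures, regular classes. -/

open Matrix Filter Topology

namespace Vale.Agent.P002.Torus

open Vale.Agent.P002.Surface (Mat Tup PF PMap)
open Vale.Agent.P002.Pair
open Vale.Agent.P002.Frames (MT MC HomM ent algOf Concl)

attribute [local instance] Matrix.linftyOpNormedAddCommGroup Matrix.linftyOpNormedSpace
  Matrix.linftyOpNormedRing Matrix.linftyOpNormedAlgebra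

variable {g r s m : ℕ}

lemma pf_ent (f : MvPolynomial (MC g s r) ℂ) :
    (fun p : Tup g r × (Fin s → Mat r) => MvPolynomial.eval (ent p) f) ∈
      PF (Tup g r × (Fin s → Mat r)) := by
  induction f using MvPolynomial.induction_on with
  | C c => simpa using Surface.PF.const c
  | add p q hp hq =>
    simp only [map_add]
    exact (PF _).add_mem hp hq
  | mul_X p q hp =>
    simp only [map_mul, MvPolynomial.eval_X]
    refine (PF _).mul_mem hp ?_
    rcases q with ⟨i, b, a, c⟩ | ⟨i, a, c⟩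
    · cases b
      · exact ((PMap.slot1 i).comp PMap.fst).entry a c
      · exact ((PMap.slot2 i).comp PMap.fst).entry a c
    · exact ((PMap.proj i).comp PMap.snd).entry a c

/-- The tuple of a point in slot coordinates. -/
def toM (J : Fin s → Mat r) (q : Amb g s r) : MT g s r := (hand q, General.bd J (conjs q))

lemma continuous_toM (J : Fin s → Mat r) : Continuous (toM (g := g) J) :=
  (continuous_pi fun i => ((continuous_apply (sa i)).prodMk (continuous_apply (sb i)))).prodMk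
    (continuous_pi fun l => ((continuous_apply (Sum.inr l)).mul continuous_const).mul
      (continuous_apply (Sum.inr l)).matrix_adjugate)

lemma toM_mem {J : Fin s → Mat r} {q : Amb g s r} (hq : q ∈ Sol J) : toM J q ∈ HomM g J :=
  ⟨fun _ => ⟨hq.1 _, hq.1 _⟩, fun l => ⟨conjs q l, hq.1 _, rfl⟩, hq.2⟩

/-- The point with given handles and conjugators. -/
def join (x : Tup g r) (k : Fin s → Mat r) : Amb g s r :=
  Sum.elim (fun p => if p.2 then (x p.1).2 else (x p.1).1) k

lemma hand_join (x : Tup g r) (k : Fin s → Mat r) : hand (join x k) = x := by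
  funext j; simp [hand, join]

lemma join_mem {J : Fin s → Mat r} {x : Tup g r} {k : Fin s → Mat r}
    (hx : ∀ i, (x i).1.det = 1 ∧ (x i).2.det = 1) (hk : ∀ i, (k i).det = 1)
    (hr : Surface.rel x * (List.ofFn (General.bd J k)).prod = 1) : join x k ∈ Sol J := by
  refine ⟨fun t => ?_, ?_⟩
  · rcases t with ⟨j, _ | _⟩ | l
    exacts [(hx j).1, (hx j).2, hk l]
  · show Surface.rel (hand (join x k)) * _ = 1
    rw [hand_join]
    exact hr

lemma exists_join {J : Fin s → Mat r} {x : MT g s r} (hx : x ∈ HomM g J) :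
    ∃ q ∈ Sol J, toM J q = x := by
  choose k hk hxk using hx.2.1
  have e : General.bd J k = x.2 := funext fun i => (hxk i).symm
  exact ⟨join x.1 k, join_mem hx.1 hk (by rw [e]; exact hx.2.2),
    Prod.ext (hand_join _ _) e⟩

/-- A representation is `Simple` if its first handle is. -/
def Simple0 {n : ℕ} (x : MT (n + 1) s r) : Prop :=
  Global.Simple (x.1 0).1.adjugate (x.1 0).2

theorem whole_of_piece {n : ℕ} {J : Fin (m + 2) → Mat r} (hr : 3 ≤ r)
    (hJ : ∀ i, (J i).det = 1) (h0 : Frames.Cyclic (J 0)) (h1 : Frames.Cyclic (J 1))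
    {L : IntermediateField ℚ ℂ} {p : MT (n + 1) (m + 2) r} (hp : p ∈ HomM (n + 1) J)
    (hpA : algOf p = ⊤) {U : Set (MT (n + 1) (m + 2) r)} (hUo : IsOpen U) (hpU : p ∈ U)
    (hcl : ∀ x ∈ U ∩ HomM (n + 1) J, ∀ f : MvPolynomial (MC (n + 1) (m + 2) r) ℂ,
      (∀ y ∈ HomM (n + 1) J, algOf y = ⊤ → (∀ q, ent y q ∈ L ∧ IsIntegral ℤ (ent y q)) →
        MvPolynomial.eval (ent y) f = 0) → MvPolynomial.eval (ent x) f = 0)
    (hprime : ∀ f₁ f₂ : MvPolynomial (MC (n + 1) (m + 2) r) ℂ,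
      (∀ x ∈ U ∩ HomM (n + 1) J, MvPolynomial.eval (ent x) (f₁ * f₂) = 0) →
        (∀ x ∈ U ∩ HomM (n + 1) J, MvPolynomial.eval (ent x) f₁ = 0) ∨
          (∀ x ∈ U ∩ HomM (n + 1) J, MvPolynomial.eval (ent x) f₂ = 0)) :
    (∀ x ∈ HomM (n + 1) J, ∀ f : MvPolynomial (MC (n + 1) (m + 2) r) ℂ,
        (∀ y ∈ HomM (n + 1) J, algOf y = ⊤ → (∀ q, ent y q ∈ L ∧ IsIntegral ℤ (ent y q)) →
          MvPolynomial.eval (ent y) f = 0) → MvPolynomial.eval (ent x) f = 0) ∧
      ∀ f₁ f₂ : MvPolynomial (MC (n + 1) (m + 2) r) ℂ,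
        (∀ x ∈ HomM (n + 1) J, MvPolynomial.eval (ent x) (f₁ * f₂) = 0) →
          (∀ x ∈ HomM (n + 1) J, MvPolynomial.eval (ent x) f₁ = 0) ∨
            (∀ x ∈ HomM (n + 1) J, MvPolynomial.eval (ent x) f₂ = 0) := by
  have hr0 : 0 < r := by omega
  -- a point of the piece with generic first handle
  obtain ⟨q₀, hq₀, hq₀p⟩ := exists_join hp
  have hirr : Algebra.adjoin ℂ (Set.range (fun i => (hand q₀ i).1) ∪
      Set.range (fun i => (hand q₀ i).2) ∪ Set.range (General.bd J (conjs q₀))) = ⊤ := by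
    rw [← hpA, ← hq₀p]
    rfl
  have hU₀ : toM J ⁻¹' U ∈ 𝓝 q₀ :=
    (continuous_toM J).continuousAt.preimage_mem_nhds (hUo.mem_nhds (hq₀p ▸ hpU))
  obtain ⟨V₀, hV₀sub, hV₀o, hqV₀⟩ := mem_nhds_iff.1 hU₀
  obtain ⟨z₀, hz₀V, hz₀, hz₀B⟩ :=
    exists_good_near (by omega) hr hJ h0 h1 hq₀ hirr (hV₀o.mem_nhds hqV₀)
  obtain ⟨x₀, hx₀V, hx₀, hs₀⟩ :=
    exists_simple_good (by omega) hJ hz₀ hz₀B 0 (hV₀o.mem_nhds hz₀V)
  have hx₀U : toM J x₀ ∈ U := hV₀sub hx₀V
  have hs₀' : Simple0 (toM J x₀) := hs₀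
  -- vanishing on the piece gives vanishing everywhere
  have key : ∀ f : MvPolynomial (MC (n + 1) (m + 2) r) ℂ,
      (∀ x ∈ U ∩ HomM (n + 1) J, MvPolynomial.eval (ent x) f = 0) →
      ∀ x ∈ HomM (n + 1) J, MvPolynomial.eval (ent x) f = 0 := by
    intro f hf x hx
    have hsimple : ∀ y ∈ HomM (n + 1) J, Simple0 y → MvPolynomial.eval (ent y) f = 0 :=
      fun y hy hys => Global.propagate hr0 hJ (toM_mem hx₀) hy hs₀' hys (pf_ent f) (by
        filter_upwards [hUo.mem_nhds hx₀U] with z hz hzH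
        exact hf z ⟨hz, hzH⟩)
    by_contra hne
    obtain ⟨q, hq, hqx⟩ := exists_join hx
    let E : Set (Tup (n + 1) r × (Fin (m + 2) → Mat r)) :=
      back (n + 1) (m + 2) r '' Bad J
    set N := (2 * (n + 1) + (m + 2) - 1) * (r ^ 2 - 1) with hN
    have hE : dimH E < ((2 * N : ℕ) : ENNReal) := by
      have hNpos : 1 ≤ N := by
        have := Nat.one_lt_pow two_ne_zero (show 1 < r by omega)
        exact Nat.one_le_iff_ne_zero.2 (Nat.mul_ne_zero (by omega) (by omega))
      exact lt_of_le_of_lt (((back (n + 1) (m + 2) r).lipschitz.dimH_image_le _).trans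
        (dimH_bad (by omega) hr h0 h1)) (Nat.cast_lt.2 (show 2 * (N - 1) < 2 * N by omega))
    have hbd : PMap fun z : Tup (n + 1) r × (Fin (m + 2) → Mat r) =>
        ((z.1, Global.bdC J z.2) : Tup (n + 1) r × (Fin (m + 2) → Mat r)) :=
      PMap.fst.prodMk (PMap.pi fun i =>
        (((PMap.proj i).comp PMap.snd).mul (PMap.const _)).mul
          ((PMap.proj i).comp PMap.snd).adjugate)
    have hlift : ((hand q, conjs q) : Tup (n + 1) r × (Fin (m + 2) → Mat r)) ∈ Global.Lift J :=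
      ⟨fun _ => ⟨hq.1 _, hq.1 _⟩, fun _ => hq.1 _, hq.2⟩
    obtain ⟨z, hzL, hzne, hzE⟩ := Global.exists_lift_off hr0 hJ hE
      (PF.comp (pf_ent f) hbd) hlift (by rw [← hqx] at hne; exact hne)
    let w := join z.1 z.2
    have hw : w ∈ Sol J := join_mem hzL.1 hzL.2.1 hzL.2.2
    have hwB : w ∉ Bad J := fun h => hzE ⟨w, h, Prod.ext (hand_join z.1 z.2) rfl⟩
    have hcont : Continuous fun v : Amb (n + 1) (m + 2) r =>
        MvPolynomial.eval (ent (toM J v)) f :=
      (PF.contDiff (pf_ent f)).continuous.comp (continuous_toM J)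
    have hwne : MvPolynomial.eval (ent (toM J w)) f ≠ 0 := by
      have : toM J w = (z.1, Global.bdC J z.2) := Prod.ext (hand_join z.1 z.2) rfl
      rw [this]; exact hzne
    obtain ⟨v, hv, hvs, hvS⟩ :=
      exists_simple_good (by omega) hJ hw hwB 0 (hcont.continuousAt.eventually_ne hwne)
    exact hv (hsimple _ (toM_mem hvs) hvS)
  refine ⟨fun x hx f hf => key f (fun y hy => hcl y hy f hf) x hx,
    fun f₁ f₂ h12 => ?_⟩
  rcases hprime f₁ f₂ (fun x hx => h12 x hx.2) with h | h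
  · exact Or.inl (key f₁ h)
  · exact Or.inr (key f₂ h)

end Vale.Agent.P002.Torus
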