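import Vale.Agent.P002.Torus.Codim
import Vale.Agent.P002.Pair.SmallBad

/-! The representations in which the first two boundary matrices have a nonscalar common
centraliser form a set of small dimension. -/

open Matrix Module Filter Topology
open scoped ENNReal

namespace Vale.Agent.P002.Torus

open Vale.Agent.P002.Surface (Mat PMap mul_adj adj_mul hasDerivAt_adjugate_line)
open Vale.Agent.P002.Pair

attribute [local instance] Matrix.linftyOpNormedAddCommGroup Matrix.linftyOpNormedSpace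
  Matrix.linftyOpNormedRing Matrix.linftyOpNormedAlgebra

variable {g r m : ℕ} {J : Fin (m + 2) → Mat r}

/-- The slot of the first conjugator. -/
abbrev sk0 : Idx g (m + 2) := Sum.inr 0

/-- The slot of the second conjugator. -/
abbrev sk1 : Idx g (m + 2) := Sum.inr 1

/-- The conjugation between the first two boundary matrices. -/
def rel2 (P : Mat r × Mat r) : Mat r := P.1.adjugate * P.2

/-- Tuples whose relative conjugation lies in `V`. -/
def BadV (J : Fin (m + 2) → Mat r) (V : Submodule ℂ (Mat r)) : Set (Amb g (m + 2) r) :=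
  {q | q ∈ Sol J ∧ rel2 (q sk1, q sk0) ∈ V}

lemma pmap_rel2 : PMap (rel2 (r := r)) := PMap.fst.adjugate.mul PMap.snd

lemma fderiv_rel2 {k₁ k₀ Y : Mat r} (hY : Y.trace = 0) :
    fderiv ℂ rel2 (k₁, k₀) (k₁ * Y, 0) = -(Y * rel2 (k₁, k₀)) := by
  have hl : HasDerivAt (fun z : ℂ => ((k₁, k₀) : Mat r × Mat r) + z • (k₁ * Y, 0)) (k₁ * Y, 0) 0 := by
    have := ((hasDerivAt_id (0 : ℂ)).smul_const ((k₁ * Y, 0) : Mat r × Mat r)).const_add (k₁, k₀)
    simp only [id, one_smul] at this
    exact this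
  have h0 : HasFDerivAt rel2 (fderiv ℂ rel2 (k₁, k₀))
      (((k₁, k₀) : Mat r × Mat r) + (0 : ℂ) • (k₁ * Y, 0)) := by
    rw [zero_smul, add_zero]
    exact ((pmap_rel2 (r := r)).contDiff.differentiable one_ne_zero _).hasFDerivAt
  refine (h0.comp_hasDerivAt (0 : ℂ) hl).unique ?_
  refine ((hasDerivAt_adjugate_line k₁ hY).mul_const k₀).congr_deriv ?_ |>.congr_of_eventuallyEq
    (Eventually.of_forall fun z => ?_)
  · simp [rel2, mul_assoc]
  · show rel2 _ = _
    simp [rel2, mul_add]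

/-- The bad set over one subspace of codimension at least `r` is small. -/
lemma dimH_badV (hg : 1 ≤ g) (hr : 0 < r) (V : Submodule ℂ (Mat r))
    (hV : finrank ℂ V + r ≤ r ^ 2) :
    dimH (BadV (g := g) J V) ≤ ((2 * ((2 * g + (m + 2) - 1) * (r ^ 2 - 1) - 1) : ℕ) : ℝ≥0∞) := by
  classical
  let j : Fin g := ⟨0, by omega⟩
  have hcov : BadV J V ⊆ ⋃ n : ℕ, {q ∈ BadV (g := g) J V | finrank ℂ (cen (q (sa j))) = n} :=
    fun q hq => Set.mem_iUnion.2 ⟨_, hq, rfl⟩
  refine (dimH_mono hcov).trans ?_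
  rw [dimH_iUnion]
  refine iSup_le fun n => dimH_le_of_local fun q hq => ?_
  obtain ⟨⟨hsol, hqV⟩, hn⟩ := hq
  obtain ⟨U₁, hU₁, Ψ, Ψ', hd, h0, hU₁', hker⟩ := exists_rank_equation (adL r (q (sa j)))
  obtain ⟨V', hVV'⟩ := V.exists_isCompl
  let W : Mat r →L[ℂ] Mat r :=
    LinearMap.toContinuousLinearMap (V'.subtype.comp (V'.projectionOnto V hVV'.symm))
  have hWV : ∀ M, W M = 0 ↔ M ∈ V := fun M => by
    show ((V'.projectionOnto V hVV'.symm M : V') : Mat r) = 0 ↔ _
    rw [ZeroMemClass.coe_eq_zero, Submodule.projectionOnto_apply_eq_zero_iff]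
  let P : Amb g (m + 2) r →L[ℂ] (Mat r →L[ℂ] Mat r) :=
    (adL r).comp (ContinuousLinearMap.proj (R := ℂ) (φ := fun _ : Idx g (m + 2) => Mat r) (sa j))
  let pp : Amb g (m + 2) r →L[ℂ] Mat r × Mat r :=
    (ContinuousLinearMap.proj (R := ℂ) (φ := fun _ : Idx g (m + 2) => Mat r) sk1).prod
      (ContinuousLinearMap.proj (R := ℂ) (φ := fun _ : Idx g (m + 2) => Mat r) sk0)
  let Du : Amb g (m + 2) r →L[ℂ] Mat r := (fderiv ℂ rel2 (pp q)).comp pp
  let G : Amb g (m + 2) r → _ := fun x => ((dets x, relF J x), (Ψ (P x), W (rel2 (pp x))))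
  have e1 : HasStrictFDerivAt (fun x => Ψ (P x)) (Ψ'.comp P) q := by
    have h2 : HasStrictFDerivAt Ψ Ψ' (P q) := hd
    exact h2.comp q P.hasStrictFDerivAt
  have e2 : HasStrictFDerivAt (fun x => W (rel2 (pp x))) (W.comp Du) q :=
    W.hasStrictFDerivAt.comp q (HasStrictFDerivAt.comp q
      ((pmap_rel2 (r := r)).contDiff.contDiffAt.hasStrictFDerivAt one_ne_zero) pp.hasStrictFDerivAt)
  have hG : HasStrictFDerivAt G (((detsD q).prod (fderiv ℂ (relF J) q)).prod
      ((Ψ'.comp P).prod (W.comp Du))) q :=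
    ((hasStrictFDerivAt_dets hsol.1).prodMk (hasFDerivAt_relF J q)).prodMk (e1.prodMk e2)
  obtain ⟨U, hU, hdim⟩ := exists_small_nhds hG
  refine ⟨U ∩ P ⁻¹' U₁, inter_mem hU (P.continuous.continuousAt.preimage_mem_nhds hU₁), ?_⟩
  refine le_trans (dimH_mono ?_) (hdim.trans ?_)
  · rintro x ⟨⟨⟨hxs, hxV⟩, hxn⟩, hxU, hx1⟩
    refine ⟨?_, hxU⟩
    rw [← hn] at hxn
    show G x = G q
    refine Prod.ext (Prod.ext (funext fun t => (hxs.1 t).trans (hsol.1 t).symm)
      (hxs.2.trans hsol.2.symm)) (Prod.ext ?_ ?_)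
    · exact ((hU₁' _ hx1).2 (((congrArg (fun S : Submodule ℂ (Mat r) => finrank ℂ S)
        (adL_ker (x (sa j)))).trans hxn).trans (congrArg (fun S : Submodule ℂ (Mat r) => finrank ℂ S)
        (adL_ker (q (sa j)))).symm)).trans h0.symm
    · exact ((hWV _).2 hxV).trans ((hWV _).2 hqV).symm
  set K := LinearMap.ker (((detsD q).prod (fderiv ℂ (relF J) q)).prod
      ((Ψ'.comp P).prod (W.comp Du))).toLinearMap with hK
  let S : Idx g (m + 2) → Submodule ℂ (Mat r) := fun t =>
    if t = sa j then derTan (q t) else tanS (q t)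
  let e : Idx g (m + 2) → ℕ := fun t => if t = sa j then finrank ℂ (der (q t)) else 0
  have hC := finrank_slots S e (fun t => ?_) (c := finrank ℂ (der (q (sa j)))) (by simp [e])
  rotate_left
  · by_cases h1 : t = sa j
    · subst h1
      simp only [S, e, if_true]
      exact (finrank_derTan hr (hsol.1 _)).le
    · rw [show S t = tanS (q t) from if_neg h1, show e t = 0 from if_neg h1, Nat.add_zero]
      exact (finrank_tanS hr (hsol.1 t)).le
  -- the extra linear condition cuts the slot space by at least `r`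
  set piS := Submodule.pi Set.univ S
  let L : Amb g (m + 2) r →ₗ[ℂ] Mat r := (W.comp Du).toLinearMap
  have hsurj : W.toLinearMap.range ≤ piS.map L := by
    rintro _ ⟨M, rfl⟩
    set u := rel2 (pp q) with hu
    have hud : u.det = 1 := by
      simp [u, rel2, pp, det_adjugate, hsol.1]
    have hua : u.adjugate * u = 1 := adj_mul hud
    have hr' : (r : ℂ) ≠ 0 := Nat.cast_ne_zero.2 hr.ne'
    let c : ℂ := (-(M * u.adjugate)).trace / r
    let Y : Mat r := -(M * u.adjugate) - c • 1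
    have hY : Y.trace = 0 := by
      rw [trace_sub, trace_smul, trace_one, Fintype.card_fin, smul_eq_mul, div_mul_cancel₀ _ hr',
        sub_self]
    refine ⟨Pi.single sk1 (q sk1 * Y), single_mem_pi (s := m + 2) ?_, ?_⟩
    · show _ ∈ if sk1 = sa j then _ else _
      rw [if_neg (by simp)]
      exact mul_mem_tanS (hsol.1 _) hY
    · show W (fderiv ℂ rel2 (pp q) (pp (Pi.single sk1 (q sk1 * Y)))) = W M
      have epp : pp (Pi.single sk1 (q sk1 * Y)) = (q sk1 * Y, 0) := by
        refine Prod.ext ?_ ?_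
        · show (Pi.single sk1 (q sk1 * Y) : Amb g (m + 2) r) sk1 = _
          simp
        · show (Pi.single sk1 (q sk1 * Y) : Amb g (m + 2) r) sk0 = 0
          simp
      have ev : fderiv ℂ rel2 (pp q) (q sk1 * Y, 0) = -(Y * u) := fderiv_rel2 hY
      have eM : -(Y * u) = M + c • u := by
        simp only [Y, sub_mul, neg_mul, mul_assoc, hua, mul_one, smul_mul_assoc, one_mul]
        abel
      rw [epp, ev, eM, map_add, map_smul, (hWV u).2 hqV, smul_zero, add_zero]
  have hcut : finrank ℂ ↥(piS ⊓ LinearMap.ker L) + r ≤ finrank ℂ piS := by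
    have h1 := (L.comp piS.subtype).finrank_range_add_finrank_ker
    rw [LinearMap.range_comp, Submodule.range_subtype] at h1
    have h2 := W.toLinearMap.finrank_range_add_finrank_ker
    have h3 : finrank ℂ W.toLinearMap.ker = finrank ℂ V := by
      rw [show W.toLinearMap.ker = V from Submodule.ext fun M => hWV M]
    rw [h3, Module.finrank_matrix, Fintype.card_fin, finrank_self, mul_one, ← sq] at h2
    have h4 := Submodule.finrank_mono hsurj
    have h5 : finrank ℂ (L.comp piS.subtype).ker = finrank ℂ ↥(piS ⊓ LinearMap.ker L) := by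
      rw [LinearMap.ker_comp, ← Submodule.map_comap_subtype]
      exact (Submodule.equivMapOfInjective _ piS.injective_subtype _).finrank_eq
    omega
  have hKC : K ≤ piS ⊓ LinearMap.ker L := by
    intro w hw
    refine ⟨fun t _ => ?_, congrArg (fun x : ((Idx g (m + 2) → ℂ) × Mat r) ×
      ((Mat r →L[ℂ] Mat r) × Mat r) => x.2.2) hw⟩
    have hdet : detD (q t) (w t) = 0 := congrFun (congrArg (fun x => x.1.1) hw) t
    show w t ∈ if t = sa j then derTan (q t) else tanS (q t)
    split_ifs with h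
    · subst h
      exact mem_derTan hdet fun v hv =>
        hker _ (congrArg (fun x => x.2.1) hw) v (sub_eq_zero.2 (mem_cen.1 hv))
    · exact hdet
  obtain ⟨I, hI, hIdim⟩ := rank_sb hr hsol j (C := piS ⊓ LinearMap.ker L) fun Y hY => by
    refine ⟨single_mem_pi (by
      show _ ∈ if sb j = sa j then _ else _
      rw [if_neg (by simp [sa, sb])]
      exact mul_mem_tanS (hsol.1 _) hY), ?_⟩
    show W (fderiv ℂ rel2 (pp q) (pp (Pi.single (sb j) (q (sb j) * Y)))) = 0
    have : pp (Pi.single (sb j) (q (sb j) * Y)) = 0 := by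
      refine Prod.ext ?_ ?_
      · show (Pi.single (sb j) (q (sb j) * Y) : Amb g (m + 2) r) sk1 = 0
        simp
      · show (Pi.single (sb j) (q (sb j) * Y) : Amb g (m + 2) r) sk0 = 0
        simp
    rw [this, map_zero, map_zero]
  have hcount := finrank_count (fderiv ℂ (relF J) q).toLinearMap hKC (fun w hw =>
    congrArg (fun x : ((Idx g (m + 2) → ℂ) × Mat r) × ((Mat r →L[ℂ] Mat r) × Mat r) => x.1.2) hw) hI
  have h1 := finrank_cen_le (q (sa j))
  have h3 := expected (s := m + 2) hg hr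
  have hC' : finrank ℂ piS + finrank ℂ (der (q (sa j))) + (2 * g + (m + 2)) ≤
      (2 * g + (m + 2)) * r ^ 2 := hC
  have hcount' : finrank ℂ K + finrank ℂ I ≤ finrank ℂ ↥(piS ⊓ LinearMap.ker L) := hcount
  exact_mod_cast (show 2 * finrank ℂ K ≤ 2 * ((2 * g + (m + 2) - 1) * (r ^ 2 - 1) - 1) by omega)

/-- The tuples with a nonscalar common centraliser of the first two boundary matrices. -/
def Bad (J : Fin (m + 2) → Mat r) : Set (Amb g (m + 2) r) :=
  {q | q ∈ Sol J ∧ ∃ y : Mat r, (∀ c : ℂ, y ≠ c • 1) ∧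
    y * General.bd J (conjs q) 0 = General.bd J (conjs q) 0 * y ∧
    y * General.bd J (conjs q) 1 = General.bd J (conjs q) 1 * y}

/-- The bad set lies over finitely many subspaces of codimension at least `r`. -/
lemma exists_cover (hr : 3 ≤ r) (h0 : Frames.Cyclic (J 0)) (h1 : Frames.Cyclic (J 1)) :
    ∃ 𝒱 : Set (Submodule ℂ (Mat r)), 𝒱.Finite ∧ (∀ V ∈ 𝒱, finrank ℂ V + r ≤ r ^ 2) ∧
      Bad (g := g) J ⊆ ⋃ V ∈ 𝒱, BadV J V := by
  obtain ⟨𝒱, hfin, hdimV, hmem⟩ := exists_subspaces hr h0 h1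
  refine ⟨𝒱, hfin, hdimV, ?_⟩
  rintro q ⟨hq, y, hy, hy0, hy1⟩
  set k₀ := q sk0 with hk0
  set k₁ := q sk1 with hk1
  have d0 : k₀.det = 1 := hq.1 _
  have d1 : k₁.det = 1 := hq.1 _
  have e0 : General.bd J (conjs q) 0 = k₀ * J 0 * k₀.adjugate := rfl
  have e1 : General.bd J (conjs q) 1 = k₁ * J 1 * k₁.adjugate := rfl
  rw [e0] at hy0
  rw [e1] at hy1
  have key : ∀ {k : Mat r}, k.det = 1 → ∀ A : Mat r,
      y * (k * A * k.adjugate) = k * A * k.adjugate * y →
      (k.adjugate * y * k) * A = A * (k.adjugate * y * k) := by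
    intro k hk A h
    have := congrArg (fun M => k.adjugate * M * k) h
    simp only [mul_assoc] at this ⊢
    rw [adj_mul hk, mul_one] at this
    simp only [← mul_assoc k.adjugate k, adj_mul hk, one_mul] at this
    exact this
  have hu : (k₁.adjugate * k₀).det = 1 := by rw [det_mul, d0, det_adjugate, d1]; simp
  have hns : ∀ c : ℂ, k₀.adjugate * y * k₀ ≠ c • 1 := fun c hc => hy c (by
    calc y = (k₀ * k₀.adjugate) * y * (k₀ * k₀.adjugate) := by rw [mul_adj d0, one_mul, mul_one]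
      _ = k₀ * (k₀.adjugate * y * k₀) * k₀.adjugate := by simp only [mul_assoc]
      _ = c • 1 := by rw [hc, mul_smul_comm, smul_mul_assoc, mul_one, mul_adj d0])
  have e : k₁.adjugate * k₀ * (k₀.adjugate * y * k₀) * (k₁.adjugate * k₀).adjugate =
      k₁.adjugate * y * k₁ := by
    rw [adjugate_mul_distrib, adj_adj d1]
    simp only [mul_assoc]
    rw [← mul_assoc k₀ k₀.adjugate, mul_adj d0, one_mul,
      ← mul_assoc k₀ k₀.adjugate, mul_adj d0, one_mul]
  obtain ⟨V, hV, huV⟩ := hmem (k₁.adjugate * k₀) hu _ hns (key d0 _ hy0)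
    (by rw [e]; exact key d1 _ hy1)
  exact Set.mem_biUnion hV ⟨hq, huV⟩

/-- The bad set is small. -/
lemma dimH_bad (hg : 1 ≤ g) (hr : 3 ≤ r) (h0 : Frames.Cyclic (J 0)) (h1 : Frames.Cyclic (J 1)) :
    dimH (Bad (g := g) J) ≤ ((2 * ((2 * g + (m + 2) - 1) * (r ^ 2 - 1) - 1) : ℕ) : ℝ≥0∞) := by
  obtain ⟨𝒱, hfin, hdimV, hsub⟩ := exists_cover (g := g) hr h0 h1
  refine (dimH_mono hsub).trans ?_
  rw [dimH_bUnion hfin.countable]
  exact iSup₂_le fun V hV => dimH_badV hg (by omega) V (hdimV V hV)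

end Vale.Agent.P002.Torus
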