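import Vale.Agent.P002.Frames.Irreducible

/-! The conjugations after which two cyclic matrices share a nonscalar commuting matrix lie in
finitely many linear subspaces of codimension at least the rank. -/

open Matrix Module

namespace Vale.Agent.P002.Torus

open Vale.Agent.P002.Frames (CMat Cyclic finite_invariant)

variable {r : ℕ}

/-- The matrices mapping `W` into `W'`. -/
def hom (W W' : Submodule ℂ (Fin r → ℂ)) : Submodule ℂ (CMat r) where
  carrier := {u | ∀ v ∈ W, u *ᵥ v ∈ W'}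
  zero_mem' v _ := by simp
  add_mem' ha hb v hv := by rw [add_mulVec]; exact add_mem (ha v hv) (hb v hv)
  smul_mem' c u hu v hv := by rw [smul_mulVec]; exact W'.smul_mem c (hu v hv)

lemma mem_hom {W W' : Submodule ℂ (Fin r → ℂ)} {u : CMat r} :
    u ∈ hom W W' ↔ ∀ v ∈ W, u *ᵥ v ∈ W' := Iff.rfl

/-- Prescribing independent vectors into subspaces is that many independent conditions. -/
lemma finrank_add_le {ι : Type} [Fintype ι] {v : ι → Fin r → ℂ} (hv : LinearIndependent ℂ v)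
    (W : ι → Submodule ℂ (Fin r → ℂ)) {V : Submodule ℂ (CMat r)}
    (hV : ∀ u ∈ V, ∀ i, u *ᵥ v i ∈ W i) :
    finrank ℂ V + ∑ i, (r - finrank ℂ (W i)) ≤ r ^ 2 := by
  let Φ : CMat r →ₗ[ℂ] ((i : ι) → (Fin r → ℂ) ⧸ W i) := LinearMap.pi fun i =>
    (W i).mkQ ∘ₗ (Matrix.mulVecBilin ℂ ℂ).flip (v i)
  have hΦ : ∀ u i, Φ u i = (W i).mkQ (u *ᵥ v i) := fun u i => rfl
  have hsurj : Φ.range = ⊤ := LinearMap.range_eq_top.2 fun t => by
    choose y hy using fun i => (W i).mkQ_surjective (t i)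
    let B := Basis.span hv
    obtain ⟨g, hg⟩ := LinearMap.exists_extend (B.constr ℂ y)
    refine ⟨LinearMap.toMatrix' g, funext fun i => ?_⟩
    rw [hΦ, ← hy i, show LinearMap.toMatrix' g *ᵥ v i = g (v i) from by
      rw [← Matrix.toLin'_apply, Matrix.toLin'_toMatrix']]
    congr 1
    have := LinearMap.congr_fun hg (B i)
    rw [B.constr_basis, LinearMap.comp_apply, Submodule.subtype_apply, Basis.span_apply] at this
    exact this
  have h := Φ.finrank_range_add_finrank_ker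
  have hq : finrank ℂ ((i : ι) → (Fin r → ℂ) ⧸ W i) = ∑ i, (r - finrank ℂ (W i)) := by
    rw [finrank_pi_fintype]
    refine Finset.sum_congr rfl fun i _ => ?_
    have := (W i).finrank_quotient_add_finrank
    rw [finrank_fin_fun] at this
    omega
  rw [hsurj, finrank_top, hq, finrank_matrix, Fintype.card_fin, finrank_self, mul_one, ← sq] at h
  have hle : finrank ℂ V ≤ finrank ℂ Φ.ker := Submodule.finrank_mono fun u hu => by
    rw [LinearMap.mem_ker]
    funext i
    rw [hΦ, Pi.zero_apply, Submodule.mkQ_apply, Submodule.Quotient.mk_eq_zero]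
    exact hV u hu i
  omega

/-- A middle dimensional subspace imposes at least `r` conditions. -/
lemma codim_single {W W' : Submodule ℂ (Fin r → ℂ)} (h : finrank ℂ W' = finrank ℂ W)
    (h2 : 2 ≤ finrank ℂ W) (h2' : finrank ℂ W + 2 ≤ r) :
    finrank ℂ (hom W W') + r ≤ r ^ 2 := by
  let B := Module.finBasis ℂ W
  have hv : LinearIndependent ℂ fun i => (B i : Fin r → ℂ) :=
    B.linearIndependent.map' W.subtype W.ker_subtype
  have := finrank_add_le hv (fun _ => W') (V := hom W W') fun u hu i => hu _ (B i).2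
  simp only [Finset.sum_const, Finset.card_univ, Fintype.card_fin, smul_eq_mul, h] at this
  have hge : r ≤ finrank ℂ W * (r - finrank ℂ W) := by
    obtain ⟨k, hk⟩ : ∃ k, k = r - finrank ℂ W := ⟨_, rfl⟩
    have : r = finrank ℂ W + k := by omega
    rw [← hk]
    nlinarith
  omega

/-- A line and a hyperplane impose at least `r` conditions. -/
lemma codim_pair (hr : 3 ≤ r) {A A' H H' : Submodule ℂ (Fin r → ℂ)} (hA : finrank ℂ A = 1)
    (hA' : finrank ℂ A' = 1) (hH : finrank ℂ H + 1 = r) (hH' : finrank ℂ H' + 1 = r) :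
    finrank ℂ (hom A A' ⊓ hom H H' : Submodule ℂ (CMat r)) + r ≤ r ^ 2 := by
  obtain ⟨v, hv, hv0, hsp⟩ := finrank_eq_one_iff'.1 hA |> fun ⟨w, hw, hspan⟩ =>
    (⟨(w : Fin r → ℂ), w.2, fun e => hw (Subtype.ext e), hspan⟩ : ∃ v : Fin r → ℂ, ∃ hv : v ∈ A,
      v ≠ 0 ∧ ∀ x : A, ∃ c : ℂ, c • (⟨v, hv⟩ : A) = x)
  obtain ⟨w, hwH, hwA⟩ : ∃ w ∈ H, w ∉ A := by
    by_contra! h
    have := Submodule.finrank_mono (show H ≤ A from h)
    omega
  have hli : LinearIndependent ℂ ![v, w] := by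
    refine (LinearIndependent.pair_iff' hv0).2 fun a e => hwA ?_
    rw [← e]; exact A.smul_mem a hv
  have := finrank_add_le hli ![A', H'] (V := hom A A' ⊓ hom H H') fun u hu i => by
    fin_cases i
    exacts [hu.1 v hv, hu.2 w hwH]
  rw [Fin.sum_univ_two] at this
  change _ + ((r - finrank ℂ A') + (r - finrank ℂ H')) ≤ _ at this
  omega

lemma invariant_ker {z T : CMat r} (h : z * T = T * z) :
    ∀ v ∈ LinearMap.ker (Matrix.mulVecLin z), T *ᵥ v ∈ LinearMap.ker (Matrix.mulVecLin z) := by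
  intro v hv
  rw [LinearMap.mem_ker, Matrix.mulVecLin_apply] at hv ⊢
  rw [mulVec_mulVec, h, ← mulVec_mulVec, hv, mulVec_zero]

lemma invariant_range {z T : CMat r} (h : z * T = T * z) :
    ∀ v ∈ LinearMap.range (Matrix.mulVecLin z), T *ᵥ v ∈ LinearMap.range (Matrix.mulVecLin z) := by
  rintro _ ⟨w, rfl⟩
  refine ⟨T *ᵥ w, ?_⟩
  rw [Matrix.mulVecLin_apply, Matrix.mulVecLin_apply, mulVec_mulVec, h, ← mulVec_mulVec]

/-- The exceptional conjugations lie in finitely many subspaces of codimension at least `r`. -/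
lemma exists_subspaces (hr : 3 ≤ r) {A B : CMat r} (hA : Cyclic A) (hB : Cyclic B) :
    ∃ 𝒱 : Set (Submodule ℂ (CMat r)), 𝒱.Finite ∧ (∀ V ∈ 𝒱, finrank ℂ V + r ≤ r ^ 2) ∧
      ∀ u : CMat r, u.det = 1 → ∀ y : CMat r, (∀ c : ℂ, y ≠ c • 1) → y * A = A * y →
        (u * y * u.adjugate) * B = B * (u * y * u.adjugate) → ∃ V ∈ 𝒱, u ∈ V := by
  classical
  set IA := {W : Submodule ℂ (Fin r → ℂ) | ∀ w ∈ W, A *ᵥ w ∈ W}
  set IB := {W : Submodule ℂ (Fin r → ℂ) | ∀ w ∈ W, B *ᵥ w ∈ W}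
  have hIA : IA.Finite := finite_invariant hA
  have hIB : IB.Finite := finite_invariant hB
  refine ⟨{V ∈ (fun p => hom p.1.1 p.1.2 ⊓ hom p.2.1 p.2.2) '' ((IA ×ˢ IB) ×ˢ (IA ×ˢ IB)) |
      finrank ℂ V + r ≤ r ^ 2},
    (((hIA.prod hIB).prod (hIA.prod hIB)).image _).subset fun V h => h.1,
    fun V h => h.2, fun u hu y hy hyA hyB => ?_⟩
  have : Nonempty (Fin r) := ⟨⟨0, by omega⟩⟩
  obtain ⟨c, hc⟩ := Module.End.exists_eigenvalue (Matrix.toLin' y)
  obtain ⟨e, he⟩ := hc.exists_hasEigenvector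
  set z := y - c • (1 : CMat r)
  have hz : z ≠ 0 := sub_ne_zero.2 (hy c)
  have hze : z *ᵥ e = 0 := by
    have h1 : y *ᵥ e = c • e := by rw [← Matrix.toLin'_apply]; exact he.apply_eq_smul
    rw [sub_mulVec, h1, smul_mulVec, one_mulVec, sub_self]
  have hua : u.adjugate * u = 1 := by rw [adjugate_mul, hu, one_smul]
  have hau : u * u.adjugate = 1 := by rw [mul_adjugate, hu, one_smul]
  set z' := u * z * u.adjugate with hz'
  have hzA : z * A = A * z := by
    simp only [z, sub_mul, mul_sub, hyA, smul_one_mul, mul_smul_one]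
  have hzB : z' * B = B * z' := by
    have : z' = u * y * u.adjugate - c • 1 := by
      simp only [z', z, mul_sub, sub_mul, mul_smul_comm, smul_mul_assoc, mul_one, hau]
    simp only [this, sub_mul, mul_sub, hyB, smul_one_mul, mul_smul_one]
  set K := LinearMap.ker (Matrix.mulVecLin z)
  set R := LinearMap.range (Matrix.mulVecLin z)
  set K' := LinearMap.ker (Matrix.mulVecLin z')
  set R' := LinearMap.range (Matrix.mulVecLin z')
  have hKR : finrank ℂ R + finrank ℂ K = r := by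
    have := (Matrix.mulVecLin z).finrank_range_add_finrank_ker
    rwa [finrank_fin_fun] at this
  have hzu : ∀ v, z' *ᵥ (u *ᵥ v) = u *ᵥ (z *ᵥ v) := fun v => by
    rw [mulVec_mulVec, mulVec_mulVec, hz', mul_assoc, hua, mul_one]
  have huK : u ∈ hom K K' := fun v hv => by
    rw [LinearMap.mem_ker, Matrix.mulVecLin_apply] at hv ⊢
    rw [hzu, hv, mulVec_zero]
  have huR : u ∈ hom R R' := by
    rintro _ ⟨w, rfl⟩
    exact ⟨u *ᵥ w, by rw [Matrix.mulVecLin_apply, Matrix.mulVecLin_apply, hzu]⟩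
  let E : (Fin r → ℂ) ≃ₗ[ℂ] (Fin r → ℂ) := LinearEquiv.ofLinearMap (Matrix.mulVecLin u)
    (Matrix.mulVecLin u.adjugate)
    (LinearMap.ext fun v => by simp [mulVec_mulVec, hau])
    (LinearMap.ext fun v => by simp [mulVec_mulVec, hua])
  have hKe : K' = K.map E.toLinearMap := by
    refine le_antisymm (fun v hv => ⟨u.adjugate *ᵥ v, ?_, ?_⟩) (Submodule.map_le_iff_le_comap.2 huK)
    · rw [LinearMap.mem_ker, Matrix.mulVecLin_apply] at hv
      show z *ᵥ (u.adjugate *ᵥ v) = 0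
      have : z = u.adjugate * z' * u := by
        rw [hz', show u.adjugate * (u * z * u.adjugate) * u = (u.adjugate * u) * z * (u.adjugate * u)
          by simp only [mul_assoc], hua, one_mul, mul_one]
      rw [this, mulVec_mulVec, mul_assoc, hau, mul_one, ← mulVec_mulVec, hv, mulVec_zero]
    · show u *ᵥ (u.adjugate *ᵥ v) = v
      rw [mulVec_mulVec, hau, one_mulVec]
  have hKd : finrank ℂ K' = finrank ℂ K := by rw [hKe, LinearEquiv.finrank_map_eq]
  have hRd : finrank ℂ R' = finrank ℂ R := by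
    have := (Matrix.mulVecLin z').finrank_range_add_finrank_ker
    rw [finrank_fin_fun] at this
    have : finrank ℂ R' + finrank ℂ K' = r := this
    omega
  have hK0 : 1 ≤ finrank ℂ K := by
    by_contra h
    have : K = ⊥ := Submodule.finrank_eq_zero.1 (by omega)
    exact he.2 ((Submodule.eq_bot_iff _).1 this e (by
      rw [LinearMap.mem_ker, Matrix.mulVecLin_apply, hze]))
  have hR0 : 1 ≤ finrank ℂ R := by
    by_contra h
    have h0 : R = ⊥ := Submodule.finrank_eq_zero.1 (by omega)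
    refine hz (Matrix.ext_of_mulVec_single fun i => ?_)
    rw [zero_mulVec]
    exact (Submodule.eq_bot_iff _).1 h0 _ ⟨Pi.single i 1, rfl⟩
  have hKI : K ∈ IA ∧ K' ∈ IB := ⟨invariant_ker hzA, invariant_ker hzB⟩
  have hRI : R ∈ IA ∧ R' ∈ IB := ⟨invariant_range hzA, invariant_range hzB⟩
  by_cases hm : 2 ≤ finrank ℂ K ∧ finrank ℂ K + 2 ≤ r
  · refine ⟨_, ⟨⟨((K, K'), (K, K')), ⟨hKI, hKI⟩, rfl⟩, ?_⟩, huK, huK⟩
    show finrank ℂ (hom K K' ⊓ hom K K' : Submodule ℂ (CMat r)) + r ≤ r ^ 2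
    rw [inf_idem]
    exact codim_single hKd hm.1 hm.2
  · rcases (show finrank ℂ K = 1 ∨ finrank ℂ R = 1 by omega) with h1 | h1
    · exact ⟨_, ⟨⟨((K, K'), (R, R')), ⟨hKI, hRI⟩, rfl⟩,
        codim_pair (A := K) (A' := K') (H := R) (H' := R') hr h1 (hKd.trans h1) (by omega)
          (by omega)⟩, huK, huR⟩
    · exact ⟨_, ⟨⟨((R, R'), (K, K')), ⟨hRI, hKI⟩, rfl⟩,
        codim_pair (A := R) (A' := R') (H := K) (H' := K') hr h1 (hRd.trans h1) (by omega)
          (by omega)⟩, huR, huK⟩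

end Vale.Agent.P002.Torus
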