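import Vale.Agent.P002.Torus.Bad

/-! Away from the bad set the first handle can be made generic. -/

open Matrix Module Filter Topology

namespace Vale.Agent.P002.Torus

open Vale.Agent.P002.Surface (Mat PMap mul_adj adj_mul)
open Vale.Agent.P002.Pair

attribute [local instance] Matrix.linftyOpNormedAddCommGroup Matrix.linftyOpNormedSpace
  Matrix.linftyOpNormedRing Matrix.linftyOpNormedAlgebra

variable {g r m : ℕ} {J : Fin (m + 2) → Mat r}

lemma bd_det (hJ : ∀ i, (J i).det = 1) {q : Amb g (m + 2) r} (hq : ∀ t, (q t).det = 1)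
    (l : Fin (m + 2)) : (General.bd J (conjs q) l).det = 1 := by
  simp [General.bd, conjs, det_mul, hJ, det_adjugate, hq]

lemma roots_near (hr : 0 < r) : ∀ᶠ z in 𝓝 (1 : ℂ), z ^ r = 1 → z = 1 := by
  have hp : (Polynomial.X ^ r - 1 : Polynomial ℂ) ≠ 0 := Polynomial.X_pow_sub_C_ne_zero hr 1
  have hfin := (Polynomial.finite_setOfPred_isRoot hp).sdiff (t := {1})
  filter_upwards [hfin.isClosed.isOpen_compl.mem_nhds (by simp)] with z hz hzr
  by_contra hne
  exact hz ⟨by simp [hzr], hne⟩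

/-- Near a solution, unit determinants and a scalar value of the relation force the relation. -/
lemma relF_eq_one (hr : 0 < r) (hJ : ∀ i, (J i).det = 1) {x : Amb g (m + 2) r}
    (hdet : ∀ t, (x t).det = 1) (ht : tlm r (relF J x) = tlm r 1)
    (hroot : ((r : ℂ)⁻¹ * (relF J x).trace) ^ r = 1 → (r : ℂ)⁻¹ * (relF J x).trace = 1) :
    relF J x = 1 := by
  have hscal : relF J x = ((r : ℂ)⁻¹ * (relF J x).trace) • 1 := by
    rwa [tlm_one hr, tlm_apply, sub_eq_zero] at ht
  have hd := det_relF hJ hdet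
  rw [hscal, det_smul, det_one, Fintype.card_fin, mul_one] at hd
  rw [hscal, hroot hd, one_smul]

lemma root_nhds (hr : 0 < r) {q : Amb g (m + 2) r} (hq : q ∈ Sol J) :
    ∀ᶠ x in 𝓝 q, ((r : ℂ)⁻¹ * (relF J x).trace) ^ r = 1 → (r : ℂ)⁻¹ * (relF J x).trace = 1 := by
  have hr' : (r : ℂ) ≠ 0 := Nat.cast_ne_zero.2 hr.ne'
  have hc : Continuous fun x : Amb g (m + 2) r => (r : ℂ)⁻¹ * (relF J x).trace :=
    continuous_const.mul (PMap.relF J).contDiff.continuous.matrix_trace
  refine (hc.continuousAt (x := q)).eventually (p := fun z => z ^ r = 1 → z = 1) ?_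
  show ∀ᶠ y in 𝓝 ((r : ℂ)⁻¹ * (relF J q).trace), y ^ r = 1 → y = 1
  rw [hq.2, trace_one, Fintype.card_fin, inv_mul_cancel₀ hr']
  exact roots_near hr

/-- Outside the bad set the first two conjugators make the derivative onto. -/
lemma scalar_of_orth_good (hJ : ∀ i, (J i).det = 1) {q : Amb g (m + 2) r} (hq : q ∈ Sol J)
    (hb : q ∉ Bad J) {x : Mat r}
    (hx : ∀ l : Fin (m + 2), l = 0 ∨ l = 1 → ∀ Y : Mat r, Y.trace = 0 →
      (x * fderiv ℂ (relF J) q (Pi.single (Sum.inr l) (q (Sum.inr l) * Y))).trace = 0) :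
    ∃ c : ℂ, x = c • 1 := by
  set P := preB J q (0 : Fin (m + 2)) with hP
  set y := P.adjugate * x * P with hy
  have hPd : P.det = 1 := det_preB hJ hq.1 _
  have h0 : y * General.bd J (conjs q) 0 = General.bd J (conjs q) 0 * y :=
    orth_conj hJ hq 0 x (hx 0 (Or.inl rfl))
  have h1 := orth_conj hJ hq 1 x (hx 1 (Or.inr rfl))
  have e : preB J q ((1 : Fin (m + 2)) : ℕ) = P * General.bd J (conjs q) 0 := by
    rw [hP, ← preB_succ]
    simp
  rw [e, conj_succ (bd_det hJ hq.1 0) h0] at h1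
  by_contra hne
  refine hb ⟨hq, y, fun c hc => hne ⟨c, ?_⟩, h0, h1⟩
  calc x = P * P.adjugate * x * (P * P.adjugate) := by rw [mul_adj hPd, one_mul, mul_one]
    _ = P * y * P.adjugate := by simp only [hy, mul_assoc]
    _ = c • 1 := by rw [hc, mul_smul_comm, mul_one, smul_mul_assoc, mul_adj hPd]

/-- Outside the bad set the first handle can be made generic. -/
theorem exists_simple_good (hr : 2 ≤ r) (hJ : ∀ i, (J i).det = 1) {q : Amb g (m + 2) r}
    (hq : q ∈ Sol J) (hb : q ∉ Bad J) (i : Fin g) {V : Set (Amb g (m + 2) r)} (hV : V ∈ 𝓝 q) :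
    ∃ x ∈ V, x ∈ Sol J ∧ Global.Simple (hand x i).1.adjugate (hand x i).2 := by
  classical
  have hr0 : 0 < r := by omega
  have hr' : (r : ℂ) ≠ 0 := Nat.cast_ne_zero.2 hr0.ne'
  let tlC : Mat r →L[ℂ] (tlm r).range := LinearMap.toContinuousLinearMap (tlm r).rangeRestrict
  let pr : Idx g (m + 2) → (Amb g (m + 2) r →L[ℂ] Mat r) := fun t =>
    ContinuousLinearMap.proj (R := ℂ) (φ := fun _ : Idx g (m + 2) => Mat r) t
  let rs : (Idx g (m + 2) → ℂ) →L[ℂ] ({t : Idx g (m + 2) // t ≠ sa i ∧ t ≠ sb i} → ℂ) :=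
    ContinuousLinearMap.pi fun t =>
      ContinuousLinearMap.proj (R := ℂ) (φ := fun _ : Idx g (m + 2) => ℂ) t.1
  let G : Amb g (m + 2) r →
      ({t : Idx g (m + 2) // t ≠ sa i ∧ t ≠ sb i} → ℂ) × (tlm r).range × Mat r × Mat r :=
    fun x => (rs (dets x), tlC (relF J x), x (sa i), x (sb i))
  set F' := fderiv ℂ (relF J) q with hF'
  have hG : HasStrictFDerivAt G ((rs.comp (detsD q)).prod
      ((tlC.comp F').prod ((pr (sa i)).prod (pr (sb i))))) q :=
    (rs.hasStrictFDerivAt.comp q (hasStrictFDerivAt_dets hq.1)).prodMk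
      ((tlC.hasStrictFDerivAt.comp q (hasFDerivAt_relF J q)).prodMk
        ((pr (sa i)).hasStrictFDerivAt.prodMk (pr (sb i)).hasStrictFDerivAt))
  set A := (rs.comp (detsD q)).prod ((tlC.comp F').prod ((pr (sa i)).prod (pr (sb i))))
  have hsurj : A.range = ⊤ := by
    refine LinearMap.range_eq_top.2 fun y => ?_
    obtain ⟨d, ⟨M, M0, hM⟩, A', B'⟩ := y
    let w0 : Amb g (m + 2) r := fun t =>
      if h : t ≠ sa i ∧ t ≠ sb i then (d ⟨t, h⟩ / r) • q t else if t = sa i then A' else B'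
    let C : Submodule ℂ (Amb g (m + 2) r) := Submodule.pi Set.univ fun t =>
      if t = sk0 ∨ t = sk1 then tanS (q t) else ⊥
    obtain ⟨y, hy, c, hc⟩ := exists_add_smul_one hr0 (I := C.map F'.toLinearMap) (fun x hx => by
      refine scalar_of_orth_good hJ hq hb fun l hl Y hY => hx _ ⟨_, ?_, rfl⟩
      refine single_mem_pi ?_
      show _ ∈ if (Sum.inr l : Idx g (m + 2)) = sk0 ∨ Sum.inr l = sk1 then _ else _
      rw [if_pos (by simpa using hl)]
      exact mul_mem_tanS (hq.1 _) hY) (M0 - F' w0)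
    obtain ⟨w1, hw1, rfl⟩ := hy
    have hw1d : ∀ t, detD (q t) (w1 t) = 0 ∧ (¬ (t = sk0 ∨ t = sk1) → w1 t = 0) := by
      intro t
      have h : w1 t ∈ if t = sk0 ∨ t = sk1 then tanS (q t) else ⊥ := hw1 t trivial
      split_ifs at h with ht
      · exact ⟨h, fun h' => absurd ht h'⟩
      · rw [Submodule.mem_bot] at h
        exact ⟨by rw [h, map_zero], fun _ => h⟩
    have hsi : ∀ b, ¬ ((Sum.inl (i, b) : Idx g (m + 2)) = sk0 ∨
        (Sum.inl (i, b) : Idx g (m + 2)) = sk1) := by simp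
    refine ⟨w0 + w1, Prod.ext (funext fun t => ?_) (Prod.ext (Subtype.ext ?_) (Prod.ext ?_ ?_))⟩
    · show detD (q t.1) (w0 t.1 + w1 t.1) = d t
      rw [map_add, (hw1d _).1, add_zero]
      simp only [w0, dif_pos t.2]
      rw [map_smul, detD_self (hq.1 _), smul_eq_mul, div_mul_cancel₀ _ hr']
    · show tlm r (F' (w0 + w1)) = M
      have : F' w1 = M0 - F' w0 - c • 1 := eq_sub_of_add_eq hc.symm
      rw [map_add, this, map_add, map_sub, map_sub, map_smul, tlm_one hr0, smul_zero, hM]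
      abel
    · show w0 (sa i) + w1 (sa i) = A'
      rw [(hw1d _).2 (hsi _), add_zero]
      simp [w0]
    · show w0 (sb i) + w1 (sb i) = B'
      rw [(hw1d _).2 (hsi _), add_zero]
      simp [w0, sa, sb]
  have himg : G '' {x | x ∈ V ∧ (((r : ℂ)⁻¹ * (relF J x).trace) ^ r = 1 →
      (r : ℂ)⁻¹ * (relF J x).trace = 1)} ∈ 𝓝 (G q) :=
    hG.map_nhds_eq_of_surj hsurj ▸ image_mem_map (Filter.Eventually.and hV (root_nhds hr0 hq))
  have hcont : Continuous fun Q : Mat r × Mat r => (rs (dets q), tlC (1 : Mat r), Q) := by fun_prop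
  have hW := hcont.continuousAt.preimage_mem_nhds (x := hand q i)
    (show _ ∈ 𝓝 (rs (dets q), tlC (1 : Mat r), hand q i) by rw [← hq.2]; exact himg)
  obtain ⟨Q, hQ, hQ1, hQ2, hQs⟩ :=
    Global.exists_simple_pair hr0 (P := hand q i) (hq.1 _) (hq.1 _) hW
  obtain ⟨x, ⟨hxV, hxr⟩, hGx⟩ := hQ
  simp only [G, Prod.mk.injEq] at hGx
  obtain ⟨hxd, hxt, hxQ⟩ := hGx
  have hpair : hand x i = Q := hxQ
  have hxa : x (sa i) = Q.1 := congrArg Prod.fst hxQ
  have hxb : x (sb i) = Q.2 := congrArg Prod.snd hxQ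
  have hdet : ∀ t, (x t).det = 1 := fun t => by
    by_cases ht : t ≠ sa i ∧ t ≠ sb i
    · exact (congrFun hxd ⟨t, ht⟩).trans (hq.1 t)
    · rcases not_and_or.1 ht with h | h <;> rw [not_not] at h <;> subst h
      · exact hxa ▸ hQ1
      · exact hxb ▸ hQ2
  exact ⟨x, hxV, ⟨hdet, relF_eq_one hr0 hJ hdet (congrArg Subtype.val hxt) hxr⟩,
    by rw [hpair]; exact hQs⟩

/-- Near an irreducible solution there is one outside the bad set. -/
theorem exists_good_near (hg : 1 ≤ g) (hr : 3 ≤ r) (hJ : ∀ i, (J i).det = 1)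
    (h0 : Frames.Cyclic (J 0)) (h1 : Frames.Cyclic (J 1)) {q : Amb g (m + 2) r} (hq : q ∈ Sol J)
    (hirr : Algebra.adjoin ℂ (Set.range (fun i => (hand q i).1) ∪ Set.range (fun i => (hand q i).2)
      ∪ Set.range (General.bd J (conjs q))) = ⊤)
    {V : Set (Amb g (m + 2) r)} (hV : V ∈ 𝓝 q) : ∃ z ∈ V, z ∈ Sol J ∧ z ∉ Bad J := by
  classical
  have hr0 : 0 < r := by omega
  have hr' : (r : ℂ) ≠ 0 := Nat.cast_ne_zero.2 hr0.ne'
  let tlC : Mat r →L[ℂ] (tlm r).range := LinearMap.toContinuousLinearMap (tlm r).rangeRestrict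
  let G : Amb g (m + 2) r → (Idx g (m + 2) → ℂ) × (tlm r).range :=
    fun x => (dets x, tlC (relF J x))
  set F' := fderiv ℂ (relF J) q
  have hG : HasStrictFDerivAt G ((detsD q).prod (tlC.comp F')) q :=
    (hasStrictFDerivAt_dets hq.1).prodMk (tlC.hasStrictFDerivAt.comp q (hasFDerivAt_relF J q))
  set A := (detsD q).prod (tlC.comp F')
  have hsurj : Function.Surjective A := by
    rintro ⟨d, ⟨M, M0, hM⟩⟩
    let w0 : Amb g (m + 2) r := fun t => (d t / r) • q t
    let C : Submodule ℂ (Amb g (m + 2) r) := Submodule.pi Set.univ fun t => tanS (q t)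
    obtain ⟨y, hy, c, hc⟩ := exists_add_smul_one hr0 (I := C.map F'.toLinearMap) (fun x hx =>
      scalar_of_orth_all hJ hq hirr fun t Y hY =>
        hx _ ⟨_, single_mem_pi (mul_mem_tanS (hq.1 _) hY), rfl⟩) (M0 - F' w0)
    obtain ⟨w1, hw1, rfl⟩ := hy
    refine ⟨w0 + w1, Prod.ext (funext fun t => ?_) (Subtype.ext ?_)⟩
    · show detD (q t) (w0 t + w1 t) = d t
      rw [map_add, show detD (q t) (w1 t) = 0 from hw1 t trivial, add_zero]
      simp only [w0]
      rw [map_smul, detD_self (hq.1 _), smul_eq_mul, div_mul_cancel₀ _ hr']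
    · show tlm r (F' (w0 + w1)) = M
      have : F' w1 = M0 - F' w0 - c • 1 := eq_sub_of_add_eq hc.symm
      rw [map_add, this, map_add, map_sub, map_sub, map_smul, tlm_one hr0, smul_zero, hM]
      abel
  obtain ⟨W, hWo, hqW, hlarge⟩ := exists_large_nhds hG hsurj
  obtain ⟨W', hW'sub, hW'o, hqW'⟩ :=
    mem_nhds_iff.1 (inter_mem (inter_mem hV (root_nhds hr0 hq)) (hWo.mem_nhds hqW))
  have hd := hlarge W' hW'o (fun x hx => (hW'sub hx).2) q hqW' rfl
  by_contra! hbad
  have hsub : {x | G x = G q} ∩ W' ⊆ Bad J := by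
    rintro x ⟨hxG, hxW⟩
    obtain ⟨⟨hxV, hxr⟩, -⟩ := hW'sub hxW
    have hxd : ∀ t, (x t).det = 1 := fun t => (congrFun (congrArg Prod.fst hxG) t).trans (hq.1 t)
    have hxt : tlm r (relF J x) = tlm r 1 := by
      rw [← hq.2]
      exact congrArg Subtype.val (congrArg Prod.snd hxG)
    exact hbad x hxV ⟨hxd, relF_eq_one hr0 hJ hxd hxt hxr⟩
  have hle := (hd.trans (dimH_mono hsub)).trans (dimH_bad hg hr h0 h1)
  have hker := A.toLinearMap.finrank_range_add_finrank_ker
  rw [LinearMap.range_eq_top.2 hsurj, finrank_top, Module.finrank_prod] at hker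
  have hrange : finrank ℂ (tlm r).range + 1 ≤ r ^ 2 := by
    have h := (tlm r).finrank_range_add_finrank_ker
    have h1 : (tlm r).ker ≠ ⊥ := fun h0 => by
      have hm : (1 : Mat r) ∈ (tlm r).ker := tlm_one hr0
      rw [h0, Submodule.mem_bot] at hm
      exact one_ne_zero (α := ℂ) (by simpa using congrFun (congrFun hm ⟨0, hr0⟩) ⟨0, hr0⟩)
    have h2 : 1 ≤ finrank ℂ (tlm r).ker := Submodule.one_le_finrank_iff.2 h1
    rw [Module.finrank_matrix, Fintype.card_fin, finrank_self, mul_one, ← sq] at h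
    omega
  obtain ⟨k, hk⟩ : ∃ k, finrank ℂ A.toLinearMap.ker = k := ⟨_, rfl⟩
  rw [hk] at hker
  have hle' : 2 * k ≤ 2 * ((2 * g + (m + 2) - 1) * (r ^ 2 - 1) - 1) :=
    hk ▸ Nat.cast_le.1 hle
  simp only [Amb, Module.finrank_pi_fintype, Module.finrank_matrix, Fintype.card_fin, finrank_self,
    mul_one, Finset.sum_const, Finset.card_univ, smul_eq_mul, Fintype.card_sum, Fintype.card_prod,
    Fintype.card_bool, ← sq] at hker
  have h3 := expected (s := m + 2) hg (show 1 ≤ r by omega)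
  have hN : 1 ≤ (2 * g + (m + 2) - 1) * (r ^ 2 - 1) := by
    have := Nat.one_lt_pow two_ne_zero (show 1 < r by omega)
    exact Nat.one_le_iff_ne_zero.2 (Nat.mul_ne_zero (by omega) (by omega))
  rw [show g * 2 = 2 * g from mul_comm _ _] at hker
  omega

end Vale.Agent.P002.Torus
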